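import Vale.Agent.P087.Basic

/-!
# The conjugate variables of the noisy tuple, before projection (P087, block 3)
-/

open scoped InnerProductSpace ENNReal

namespace Vale.Agent.P087.Noisy

variable {G : Type*} [Group G] {κ : Type*} {n : ℕ}

/-- append the letter `a`, as a partial bijection -/
noncomputable def snocE {P : Type*} (a : P) : List P ≃. List P where
  toFun l := some (l ++ [a])
  invFun l := by classical exact if l.getLast? = some a then some l.dropLast else none
  inv l r := by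
    classical
    constructor
    · intro h
      split_ifs at h with hr
      · cases h
        exact congrArg some (List.dropLast_append_getLast? _ hr)
    · intro h
      cases h
      simp

/-- right annihilation -/
noncomputable def strip (a : G ⊕ κ) : Fock G κ →L[ℂ] Fock G κ := pull (snocE a)

@[simp] lemma strip_apply (a : G ⊕ κ) (v : Fock G κ) (l : List (G ⊕ κ)) :
    (strip a v : List (G ⊕ κ) → ℂ) l = (v : List (G ⊕ κ) → ℂ) (l ++ [a]) := by
  simp [strip, snocE]

lemma vac_apply (l : List (G ⊕ κ)) :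
    (vac G κ : List (G ⊕ κ) → ℂ) l = if l = [] then 1 else 0 := by
  classical
  rw [vac_eq]
  by_cases h : l = [] <;> simp [h]

@[simp] lemma add_at {P : Type*} (v w : L2 P) (l : P) :
    ((v + w : L2 P) : P → ℂ) l = (v : P → ℂ) l + (w : P → ℂ) l := rfl

@[simp] lemma smul_at {P : Type*} (z : ℂ) (v : L2 P) (l : P) :
    ((z • v : L2 P) : P → ℂ) l = z * (v : P → ℂ) l := rfl

lemma sum_at {P ι : Type*} (s : Finset ι) (f : ι → L2 P) (l : P) :
    ((∑ i ∈ s, f i : L2 P) : P → ℂ) l = ∑ i ∈ s, (f i : P → ℂ) l := by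
  classical
  induction s using Finset.induction with
  | empty => simp
  | insert a s ha ih => rw [Finset.sum_insert ha, Finset.sum_insert ha, add_at, ih]

lemma tau_vac (T : Fock G κ →L[ℂ] Fock G κ) :
    tau (vac G κ) T = (T (vac G κ) : List (G ⊕ κ) → ℂ) [] := by
  classical
  rw [tau, vac_eq, inner_single_one]

lemma strip_genA (g : G) (a : κ) (v : Fock G κ) :
    strip (Sum.inr a) (genA g v) = genA g (strip (Sum.inr a) v) := by
  classical
  ext l
  rw [strip_apply, genA_def]
  rcases l with _ | ⟨x | x, t⟩ <;> split_ifs <;> simp [-lp.coeFn_add, -lp.coeFn_smul]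

lemma strip_genS [DecidableEq κ] (b a : κ) (v : Fock G κ) :
    strip (Sum.inr a) (genS b v) = genS b (strip (Sum.inr a) v)
      + (if a = b then (v : List (G ⊕ κ) → ℂ) [] else 0) • vac G κ := by
  classical
  ext l
  rw [strip_apply, genS]
  rcases l with _ | ⟨x, t⟩
  · by_cases h : a = b <;> simp [h, vac_apply, -lp.coeFn_add, -lp.coeFn_smul] <;> ring
  · simp [-lp.coeFn_add, -lp.coeFn_smul]
    split_ifs <;> simp [vac_apply]

section

variable (g : Fin n → G) (c : Fin n → ℝ) (u : ℝ)

/-- the noisy tuple -/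
noncomputable abbrev Y : Fin n → Fock G (Fin n ⊕ Fin n) →L[ℂ] Fock G (Fin n ⊕ Fin n) :=
  addNoise (modelX g c) modelS u

lemma Y_apply (j : Fin n) (v : Fock G (Fin n ⊕ Fin n)) :
    Y g c u j v = genA (g j) v + (Real.sqrt (c j) : ℂ) • genS (Sum.inl j) v
      + (Real.sqrt u : ℂ) • genS (Sum.inr j) v := by
  simp [addNoise, modelX, modelS] <;> rfl

/-- right annihilation of the unit semicircular vector, divided by the square root of `c i + u` -/
noncomputable def stripE (i : Fin n) : Fock G (Fin n ⊕ Fin n) →L[ℂ] Fock G (Fin n ⊕ Fin n) :=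
  ((Real.sqrt (c i) / (c i + u) : ℝ) : ℂ) • strip (Sum.inr (Sum.inl i))
    + ((Real.sqrt u / (c i + u) : ℝ) : ℂ) • strip (Sum.inr (Sum.inr i))

lemma stripE_Y (i j : Fin n) (hi : 0 < c i) (hu : 0 ≤ u) (v : Fock G (Fin n ⊕ Fin n)) :
    stripE c u i (Y g c u j v) = Y g c u j (stripE c u i v)
      + (if j = i then (v : List (G ⊕ (Fin n ⊕ Fin n)) → ℂ) [] else 0) • vac G (Fin n ⊕ Fin n) := by
  have hv : c i + u ≠ 0 := by positivity
  have e : (Real.sqrt (c i) : ℂ) * ((Real.sqrt (c i) / (c i + u) : ℝ) : ℂ)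
      + (Real.sqrt u : ℂ) * ((Real.sqrt u / (c i + u) : ℝ) : ℂ) = 1 := by
    rw [← Complex.ofReal_mul, ← Complex.ofReal_mul, ← Complex.ofReal_add, mul_div_assoc',
      mul_div_assoc', ← add_div, Real.mul_self_sqrt hi.le, Real.mul_self_sqrt hu, div_self hv,
      Complex.ofReal_one]
  simp only [stripE, Y_apply, add_apply, smul_apply, map_add, map_smul, strip_genA, strip_genS,
    Sum.inl.injEq, Sum.inr.injEq, reduceCtorEq, if_false, zero_smul, add_zero, smul_add, smul_smul]
  by_cases h : j = i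
  · subst h
    simp only [if_true]
    set z := (v : List (G ⊕ (Fin n ⊕ Fin n)) → ℂ) []
    rw [show z • vac G (Fin n ⊕ Fin n) = ((Real.sqrt (c j) : ℂ)
        * ((Real.sqrt (c j) / (c j + u) : ℝ) : ℂ) * z) • vac G (Fin n ⊕ Fin n)
        + ((Real.sqrt u : ℂ) * ((Real.sqrt u / (c j + u) : ℝ) : ℂ) * z) • vac G (Fin n ⊕ Fin n) by
      rw [← add_smul, ← add_mul, e, one_mul]]
    module
  · simp only [if_neg h, if_neg (Ne.symm h), mul_zero, zero_smul, add_zero]
    module

lemma stripE_word (i : Fin n) (hi : 0 < c i) (hu : 0 ≤ u) (w : List (Fin n)) :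
    stripE c u i (wordOp (Y g c u) w (vac G (Fin n ⊕ Fin n))) =
      ∑ l : Fin w.length, (if w.get l = i then
        tau (vac G (Fin n ⊕ Fin n)) (wordOp (Y g c u) (w.drop (l + 1))) else 0)
          • wordOp (Y g c u) (w.take l) (vac G (Fin n ⊕ Fin n)) := by
  induction w with
  | nil =>
    simp only [wordOp_nil, List.length_nil, Finset.univ_eq_empty, Finset.sum_empty,
      ContinuousLinearMap.one_apply]
    ext l
    simp [stripE, vac_apply]
  | cons b w ih =>
    rw [wordOp_cons, ContinuousLinearMap.mul_apply, stripE_Y g c u i b hi hu, ih, ← tau_vac]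
    rw [show ∀ f : Fin (b :: w).length → Fock G (Fin n ⊕ Fin n),
        ∑ l, f l = f ⟨0, by simp⟩ + ∑ l : Fin w.length, f l.succ from
      fun f => Fin.sum_univ_succ (n := w.length) f]
    rw [map_sum, add_comm]
    refine congrArg₂ (· + ·) ?_ (Finset.sum_congr rfl fun l _ => ?_)
    · simp
    · simp only [List.get_eq_getElem, Fin.val_succ, List.getElem_cons_succ, List.take_succ_cons,
        List.drop_succ_cons, map_smul, wordOp_cons, ContinuousLinearMap.mul_apply]

/-- the vector of the conjugate variable before projection -/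
noncomputable def xi0 (i : Fin n) : Fock G (Fin n ⊕ Fin n) := by
  classical exact
    lp.single 2 [Sum.inr (Sum.inl i)] ((Real.sqrt (c i) / (c i + u) : ℝ) : ℂ)
      + lp.single 2 [Sum.inr (Sum.inr i)] ((Real.sqrt u / (c i + u) : ℝ) : ℂ)

lemma inner_xi0 (i : Fin n) (v : Fock G (Fin n ⊕ Fin n)) :
    ⟪xi0 c u i, v⟫_ℂ = (stripE c u i v : List (G ⊕ (Fin n ⊕ Fin n)) → ℂ) [] := by
  classical
  simp [xi0, stripE, inner_add_left, lp.inner_single_left, Complex.conj_ofReal, mul_comm, -lp.coeFn_add, -lp.coeFn_smul]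

lemma inner_xi0_word (i : Fin n) (hi : 0 < c i) (hu : 0 ≤ u) (w : List (Fin n)) :
    ⟪xi0 c u i, wordOp (Y g c u) w (vac G (Fin n ⊕ Fin n))⟫_ℂ =
      dqValue (vac G (Fin n ⊕ Fin n)) (Y g c u) i w := by
  rw [inner_xi0, stripE_word g c u i hi hu, dqValue, sum_at]
  refine Finset.sum_congr rfl fun l _ => ?_
  rw [smul_at, ← tau_vac]
  split_ifs <;> ring

lemma norm_xi0_sq (i : Fin n) (hi : 0 < c i) (hu : 0 ≤ u) :
    ‖(xi0 c u i : Fock G (Fin n ⊕ Fin n))‖ ^ 2 = 1 / (c i + u) := by
  have h := inner_xi0 (G := G) c u i (xi0 c u i)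
  rw [inner_self_eq_norm_sq_to_K] at h
  have hne : c i + u ≠ 0 := by positivity
  have h' : ((‖(xi0 c u i : Fock G (Fin n ⊕ Fin n))‖ ^ 2 : ℝ) : ℂ) = ((1 / (c i + u) : ℝ) : ℂ) := by
    classical
    push_cast at h ⊢
    refine h.trans ?_
    have hre : Real.sqrt (c i) / (c i + u) * (Real.sqrt (c i) / (c i + u))
        + Real.sqrt u / (c i + u) * (Real.sqrt u / (c i + u)) = (c i + u)⁻¹ := by
      rw [← pow_two, ← pow_two, div_pow, div_pow, Real.sq_sqrt hi.le, Real.sq_sqrt hu]
      field_simp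
    simp [stripE, xi0, -lp.coeFn_add, -lp.coeFn_smul]
    exact_mod_cast congrArg Complex.ofReal hre
  exact_mod_cast h'

end

end Vale.Agent.P087.Noisy
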