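import Vale.Agent.P087.Noisy.ConjVar

/-!
# A vector orthogonal to all polynomials in the noisy tuple (P087, block 3)
-/

open scoped InnerProductSpace ENNReal

namespace Vale.Agent.P087.Noisy

variable {G : Type*} [Group G] {κ : Type*} {n : ℕ}

lemma inner_cre (a : G ⊕ κ) (x y : Fock G κ) : ⟪x, cre a y⟫_ℂ = ⟪ann a x, y⟫_ℂ := by
  rw [← star_cre, ContinuousLinearMap.star_eq_adjoint, ContinuousLinearMap.adjoint_inner_left]

lemma inner_gau (h : G) (x y : Fock G κ) : ⟪x, gau h y⟫_ℂ = ⟪gau h⁻¹ x, y⟫_ℂ := by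
  rw [← star_gau, ContinuousLinearMap.star_eq_adjoint, ContinuousLinearMap.adjoint_inner_left]

lemma ann_cre [DecidableEq (G ⊕ κ)] (b a : G ⊕ κ) (v : Fock G κ) :
    ann b (cre a v) = (if b = a then (1 : ℂ) else 0) • v := by
  ext l
  split_ifs with h <;> simp [h]

lemma ann_gau_inl (h x : G) (v : Fock G κ) :
    ann (Sum.inl x) (gau h v) = ann (Sum.inl (h⁻¹ * x)) v := by
  ext l
  simp

lemma ann_gau_inr (h : G) (e : κ) (v : Fock G κ) : ann (Sum.inr e) (gau h v) = 0 := by
  ext l
  simp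

section

variable (g : Fin n → G) (c : Fin n → ℝ) (u : ℝ)

/-- the part of `Y k` that prepends a letter -/
noncomputable def chOp (k : Fin n) : Fock G (Fin n ⊕ Fin n) →L[ℂ] Fock G (Fin n ⊕ Fin n) :=
  (1 / 2 : ℂ) • cre (Sum.inl (g k)) + (Real.sqrt (c k) : ℂ) • cre (Sum.inr (Sum.inl k))
    + (Real.sqrt u : ℂ) • cre (Sum.inr (Sum.inr k))

/-- the part of `Y k` that removes a letter -/
noncomputable def ahOp (k : Fin n) : Fock G (Fin n ⊕ Fin n) →L[ℂ] Fock G (Fin n ⊕ Fin n) :=
  (1 / 2 : ℂ) • ann (Sum.inl (g k)) + (Real.sqrt (c k) : ℂ) • ann (Sum.inr (Sum.inl k))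
    + (Real.sqrt u : ℂ) • ann (Sum.inr (Sum.inr k))

/-- the sum over all ways of cutting a word into blocks -/
noncomputable def Qv : List (Fin n) → Fock G (Fin n ⊕ Fin n)
  | [] => vac G (Fin n ⊕ Fin n)
  | k :: w => chOp g c u k (Qv w) + gau (g k) (Qv w)

/-- the algebraic span of the `Qv` -/
noncomputable def qSpan : Submodule ℂ (Fock G (Fin n ⊕ Fin n)) :=
  Submodule.span ℂ (Set.range (Qv g c u))

lemma Qv_mem (w : List (Fin n)) : Qv g c u w ∈ qSpan g c u := Submodule.subset_span ⟨w, rfl⟩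

lemma ann_Qv_mem (w : List (Fin n)) :
    ∀ b : G ⊕ (Fin n ⊕ Fin n), ann b (Qv g c u w) ∈ qSpan g c u := by
  classical
  induction w with
  | nil =>
    intro b
    rw [Qv, vac_eq, ann_single_nil]
    exact zero_mem _
  | cons k w ih =>
    intro b
    simp only [Qv, chOp, map_add, add_apply, smul_apply, map_smul, ann_cre]
    refine add_mem (add_mem (add_mem ?_ ?_) ?_) ?_
    all_goals try exact Submodule.smul_mem _ _ (Submodule.smul_mem _ _ (Qv_mem g c u w))
    rcases b with x | e
    · rw [ann_gau_inl]; exact ih _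
    · rw [ann_gau_inr]; exact zero_mem _

lemma Y_eq (k : Fin n) (hk : g k * g k = 1) (v : Fock G (Fin n ⊕ Fin n)) [Decidable (g k = 1)] :
    Y g c u k v = chOp g c u k v + gau (g k) v + ahOp g c u k v
      + (if g k = 1 then (1 / 4 : ℂ) else 0) • v := by
  classical
  have hinv : (g k)⁻¹ = g k := inv_eq_of_mul_eq_one_right hk
  rw [Y_apply, genA_def, hinv, genS, genS, chOp, ahOp]
  simp only [add_apply, smul_apply, smul_add, ContinuousLinearMap.one_apply]
  split_ifs <;> module

lemma Y_mem (hg : ∀ j, g j * g j = 1) (k : Fin n) {v : Fock G (Fin n ⊕ Fin n)}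
    (hv : v ∈ qSpan g c u) : Y g c u k v ∈ qSpan g c u := by
  classical
  refine (Submodule.span_le.2 ?_ : qSpan g c u ≤ (qSpan g c u).comap (Y g c u k).toLinearMap) hv
  rintro _ ⟨w, rfl⟩
  change Y g c u k (Qv g c u w) ∈ qSpan g c u
  rw [Y_eq g c u k (hg k)]
  refine add_mem (add_mem ?_ ?_) (Submodule.smul_mem _ _ (Qv_mem g c u w))
  · exact Qv_mem g c u (k :: w)
  · simp only [ahOp, add_apply, smul_apply]
    exact add_mem (add_mem (Submodule.smul_mem _ _ (ann_Qv_mem g c u w _))
      (Submodule.smul_mem _ _ (ann_Qv_mem g c u w _))) (Submodule.smul_mem _ _ (ann_Qv_mem g c u w _))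

lemma word_mem_qSpan (hg : ∀ j, g j * g j = 1) (w : List (Fin n)) :
    wordOp (Y g c u) w (vac G (Fin n ⊕ Fin n)) ∈ qSpan g c u := by
  induction w with
  | nil => simpa [Qv] using Qv_mem g c u []
  | cons k w ih =>
    rw [wordOp_cons, ContinuousLinearMap.mul_apply]
    exact Y_mem g c u hg k ih

lemma Qv_nil_coord (w : List (Fin n)) :
    (Qv g c u w : List (G ⊕ (Fin n ⊕ Fin n)) → ℂ) [] = if w = [] then 1 else 0 := by
  classical
  cases w with
  | nil => simp [Qv, vac_apply]
  | cons k w => simp [Qv, chOp, -lp.coeFn_add, -lp.coeFn_smul, -Complex.coe_smul]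

lemma Qv_inl_coord [DecidableEq G] (w : List (Fin n)) :
    ∀ x : G, (Qv g c u w : List (G ⊕ (Fin n ⊕ Fin n)) → ℂ) [Sum.inl x] =
      if w ≠ [] ∧ (w.map g).prod = x then 1 / 2 else 0 := by
  classical
  induction w with
  | nil => intro x; simp [Qv, vac_apply]
  | cons k w ih =>
    intro x
    simp only [Qv, chOp, add_apply, smul_apply, add_at, smul_at, cre_apply_cons, gau_apply_inl, ih,
      Qv_nil_coord, ne_eq, Sum.inl.injEq, reduceCtorEq, if_false, mul_zero, add_zero,
      List.map_cons, List.prod_cons, not_false_eq_true, true_and, eq_inv_mul_iff_mul_eq]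
    cases w with
    | nil => by_cases h : g k = x <;> simp [h, Ne.symm]
    | cons m w => simp

/-- the coefficient of the orthogonal vector on lists of semicircular letters -/
noncomputable def zf (i : Fin n) : G → List (G ⊕ (Fin n ⊕ Fin n)) → ℂ
  | x, [] => by classical exact if x = g i then -(1 / 4) else 0
  | _, Sum.inl _ :: _ => 0
  | x, Sum.inr (Sum.inl j) :: r =>
      ((Real.sqrt (c j) / (c j + u) : ℝ) : ℂ) * zf i (x * g j) r
  | x, Sum.inr (Sum.inr j) :: r =>
      ((Real.sqrt u / (c j + u) : ℝ) : ℂ) * zf i (x * g j) r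

lemma inner_Qv [DecidableEq G] (i : Fin n) (hc : ∀ j, 0 < c j) (hu : 0 ≤ u) (w : List (Fin n)) :
    ∀ (x : G) (θ : Fock G (Fin n ⊕ Fin n)),
      (∀ l, (θ : List (G ⊕ (Fin n ⊕ Fin n)) → ℂ) l = zf g c u i x l) →
        ⟪θ, Qv g c u w⟫_ℂ = if x * (w.map g).prod = g i then -(1 / 4) else 0 := by
  classical
  induction w with
  | nil =>
    intro x θ h
    rw [Qv, vac_eq, lp.inner_single_right, h]
    simp only [zf, List.map_nil, List.prod_nil, mul_one]
    split_ifs <;> simp [map_ofNat]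
  | cons k w ih =>
    intro x θ h
    have h1 : ann (Sum.inl (g k)) θ = 0 := by
      ext l; simp [h, zf]
    have h2 : gau (g k)⁻¹ θ = 0 := by
      ext l
      rcases l with _ | ⟨y | y, t⟩ <;> simp [h, zf]
    have h3 : ∀ l, (((Real.sqrt (c k) : ℂ) • ann (Sum.inr (Sum.inl k)) θ
        + (Real.sqrt u : ℂ) • ann (Sum.inr (Sum.inr k)) θ : Fock G (Fin n ⊕ Fin n)) :
          List (G ⊕ (Fin n ⊕ Fin n)) → ℂ) l = zf g c u i (x * g k) l := by
      intro l
      have hne : c k + u ≠ 0 := by have := hc k; positivity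
      have e : Real.sqrt (c k) * (Real.sqrt (c k) / (c k + u))
          + Real.sqrt u * (Real.sqrt u / (c k + u)) = 1 := by
        rw [mul_div_assoc', mul_div_assoc', ← add_div, Real.mul_self_sqrt (hc k).le,
          Real.mul_self_sqrt hu, div_self hne]
      simp only [add_at, smul_at, ann_apply, h, zf, ← mul_assoc, ← Complex.ofReal_mul, ← add_mul,
        ← Complex.ofReal_add, e, Complex.ofReal_one, one_mul]
    have h4 := ih (x * g k) _ h3
    simp only [inner_add_left, inner_smul_left, Complex.conj_ofReal] at h4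
    simp only [Qv, chOp, add_apply, smul_apply, inner_add_right, inner_smul_right, inner_cre,
      inner_gau, h1, h2, inner_zero_left, mul_zero, zero_add, add_zero, h4, List.map_cons,
      List.prod_cons, mul_assoc]

end

end Vale.Agent.P087.Noisy
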