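import Vale.Agent.P087.Noisy.Orth

/-!
# Square summability of the orthogonal vector, via the weighted word count (P087, block 3)
-/

open scoped InnerProductSpace ENNReal

namespace Vale.Agent.P087.Noisy

variable {G : Type*} [Group G] {n : ℕ} (g : Fin n → G) (c : Fin n → ℝ) (u : ℝ)

lemma normsq_zf [DecidableEq G] (i : Fin n) (hc : ∀ j, 0 < c j) (hu : 0 ≤ u) (m : ℕ) : ∀ x : G,
    ∑ f : Fin m → Fin n ⊕ Fin n, ‖zf g c u i x (List.ofFn fun q => Sum.inr (f q))‖ ^ 2 =
      1 / 16 * ∑ w : Fin m → Fin n,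
        if x * (List.ofFn fun q => g (w q)).prod = g i then ∏ q, (c (w q) + u)⁻¹ else 0 := by
  classical
  induction m with
  | zero =>
    intro x
    by_cases h : x = g i <;> simp [zf, h] <;> norm_num
  | succ m ih =>
    intro x
    rw [← Equiv.sum_comp (Fin.consEquiv fun _ => Fin n ⊕ Fin n),
      ← Equiv.sum_comp (Fin.consEquiv fun _ => Fin n), Fintype.sum_prod_type, Fintype.sum_prod_type,
      Fintype.sum_sum_type, Finset.mul_sum, ← Finset.sum_add_distrib]
    refine Finset.sum_congr rfl fun k _ => ?_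
    have hne : c k + u ≠ 0 := by have := hc k; positivity
    have e : (Real.sqrt (c k) / (c k + u)) ^ 2 + (Real.sqrt u / (c k + u)) ^ 2 = (c k + u)⁻¹ := by
      rw [div_pow, div_pow, Real.sq_sqrt (hc k).le, Real.sq_sqrt hu]; field_simp
    simp only [Fin.consEquiv_apply, List.ofFn_succ, Fin.cons_zero, Fin.cons_succ, zf, norm_mul,
      Complex.norm_real, Real.norm_eq_abs, mul_pow, sq_abs, List.prod_cons, Fin.prod_univ_succ]
    rw [← Finset.mul_sum, ← Finset.mul_sum, ← add_mul, e, ih, mul_left_comm, Finset.mul_sum]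
    simp only [mul_ite, mul_zero, mul_assoc]

lemma zf_eq_zero (i : Fin n) : ∀ (l : List (G ⊕ (Fin n ⊕ Fin n))) (x : G),
    zf g c u i x l ≠ 0 → ∃ r : List (Fin n ⊕ Fin n), l = r.map Sum.inr := by
  intro l
  induction l with
  | nil => intro x _; exact ⟨[], rfl⟩
  | cons a l ih =>
    intro x h
    rcases a with y | (j | j)
    · exact absurd rfl h
    all_goals
      simp only [zf, mul_ne_zero_iff] at h
      obtain ⟨r, rfl⟩ := ih _ h.2
      exact ⟨_ :: r, rfl⟩

lemma theta_exists [DecidableEq G] (i : Fin n) (hc : ∀ j, 0 < c j) (hu : 0 ≤ u) {B : ℝ}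
    (hB0 : 0 ≤ B) (hB : ∀ M, countSum g (fun j => c j + u) i M ≤ B) :
    ∃ θ : Fock G (Fin n ⊕ Fin n),
      (∀ l, (θ : List (G ⊕ (Fin n ⊕ Fin n)) → ℂ) l = zf g c u i 1 l) ∧ ‖θ‖ ^ 2 ≤ B / 16 := by
  classical
  have hfin : ∀ s : Finset (List (G ⊕ (Fin n ⊕ Fin n))),
      ∑ l ∈ s, ‖zf g c u i 1 l‖ ^ 2 ≤ B / 16 := by
    intro s
    obtain ⟨M, hM⟩ : ∃ M, ∀ l ∈ s, l.length < M :=
      ⟨s.sup List.length + 1, fun l hl => Nat.lt_succ_of_le (Finset.le_sup hl)⟩
    set t := ((Finset.range M).sigma fun m => (Finset.univ : Finset (Fin m → Fin n ⊕ Fin n))).image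
      (fun p => List.ofFn fun q => (Sum.inr (p.2 q) : G ⊕ (Fin n ⊕ Fin n))) with ht
    rw [← Finset.sum_filter_of_ne (p := fun l => zf g c u i 1 l ≠ 0) fun l _ h hz =>
      h (by simp [hz])]
    refine (Finset.sum_le_sum_of_subset_of_nonneg (t := t) ?_ fun _ _ _ => sq_nonneg _).trans ?_
    · intro l hl
      obtain ⟨hls, hnz⟩ := Finset.mem_filter.1 hl
      obtain ⟨r, rfl⟩ := zf_eq_zero g c u i l 1 hnz
      refine Finset.mem_image.2 ⟨⟨r.length, r.get⟩, Finset.mem_sigma.2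
        ⟨Finset.mem_range.2 (by simpa using hM _ hls), Finset.mem_univ _⟩, ?_⟩
      change List.ofFn (Sum.inr ∘ r.get) = _
      rw [← List.map_ofFn, List.ofFn_get]
    · rw [ht, Finset.sum_image, Finset.sum_sigma]
      · simp only [normsq_zf g c u i hc hu, one_mul, ← Finset.mul_sum]
        have h' := hB M
        simp only [countSum] at h'
        have h2 : ∀ a : ℝ, a ≤ B → 1 / 16 * a ≤ B / 16 := fun a ha => by linarith
        refine h2 _ (le_trans (le_of_eq ?_) h')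
        congr! 4
      · rintro ⟨m, f⟩ _ ⟨m', f'⟩ _ h
        obtain rfl : m = m' := by simpa using congrArg List.length h
        obtain rfl : f = f' := funext fun q => Sum.inr_injective (congrFun (List.ofFn_injective h) q)
        rfl
  have htwo : (2 : ℝ≥0∞).toReal = ((2 : ℕ) : ℝ) := by norm_num
  have hmem : Memℓp (zf g c u i 1) 2 := memℓp_gen' (C := B / 16) fun s => by
    simpa [htwo, Real.rpow_natCast] using hfin s
  refine ⟨⟨zf g c u i 1, hmem⟩, fun l => rfl, ?_⟩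
  have hle : ‖(⟨zf g c u i 1, hmem⟩ : Fock G (Fin n ⊕ Fin n))‖ ≤ Real.sqrt (B / 16) :=
    lp.norm_le_of_forall_sum_le (by norm_num) (Real.sqrt_nonneg _) fun s => by
      rw [htwo]
      simp only [Real.rpow_natCast, Real.sq_sqrt (by positivity : (0 : ℝ) ≤ B / 16)]
      exact hfin s
  calc ‖(⟨zf g c u i 1, hmem⟩ : Fock G (Fin n ⊕ Fin n))‖ ^ 2
      ≤ Real.sqrt (B / 16) ^ 2 := pow_le_pow_left₀ (norm_nonneg _) hle 2
    _ = B / 16 := Real.sq_sqrt (by positivity)

lemma eta_exists [DecidableEq G] (i : Fin n) (hgi : g i ≠ 1)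
    (hc : ∀ j, 0 < c j) (hu : 0 ≤ u) {B : ℝ}
    (hB0 : 0 ≤ B) (hB : ∀ M, countSum g (fun j => c j + u) i M ≤ B) :
    ∃ η : Fock G (Fin n ⊕ Fin n), (∀ y ∈ qSpan g c u, ⟪η, y⟫_ℂ = 0) ∧
      (η : List (G ⊕ (Fin n ⊕ Fin n)) → ℂ) [Sum.inl (g i)] = 1 / 2 ∧
      ‖η‖ ^ 2 ≤ 1 / 4 + B / 16 := by
  classical
  obtain ⟨θ, hθ, hθn⟩ := theta_exists g c u i hc hu hB0 hB
  set a : Fock G (Fin n ⊕ Fin n) := lp.single 2 [Sum.inl (g i)] (1 / 2 : ℂ) with ha
  have horth : ⟪θ, a⟫_ℂ = 0 := by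
    rw [ha, lp.inner_single_right, hθ]; simp [zf]
  refine ⟨θ + a, fun y hy => ?_, ?_, ?_⟩
  · induction hy using Submodule.span_induction with
    | mem y hy =>
      obtain ⟨w, rfl⟩ := hy
      rw [inner_add_left, inner_Qv g c u i hc hu w 1 θ hθ, ha, lp.inner_single_left,
        Qv_inl_coord g c u w, one_mul]
      by_cases hw : w = []
      · subst hw; simp [Ne.symm hgi]
      · by_cases hp : (w.map g).prod = g i <;> simp [hw, hp, map_ofNat]
        norm_num
    | zero => simp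
    | add y z _ _ hy hz => rw [inner_add_right, hy, hz, add_zero]
    | smul z y _ hy => rw [inner_smul_right, hy, mul_zero]
  · rw [add_at, hθ, ha]; simp [zf]
  · have h := norm_add_sq_eq_norm_sq_add_norm_sq_of_inner_eq_zero θ a horth
    have hn : ‖a‖ = 1 / 2 := by rw [ha, lp.norm_single (by norm_num)]; simp
    rw [pow_two, h, hn]
    nlinarith

end Vale.Agent.P087.Noisy
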